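import Vale.Agent.P026.Main

namespace Vale.Agent.Results.P026.QuasiRH

theorem result :
    (∀ s : ℂ, 999 / 1000 < s.re → riemannZeta s ≠ 0) ∧
    (∀ (q : ℕ) [NeZero q] (χ : DirichletCharacter ℂ q) (s : ℂ), 999 / 1000 < s.re →
      χ ≠ 1 ∨ s ≠ 1 → DirichletCharacter.LFunction χ s ≠ 0) := by
  constructor
  · intro s hs
    by_cases h1 : s = 1
    · exact riemannZeta_ne_zero_of_one_le_re (by simp [h1])
    · have := Vale.Agent.P026.lfun_ne_zero (1 : DirichletCharacter ℂ 1) hs h1
      rwa [DirichletCharacter.LFunction_modOne_eq] at this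
  · intro q _ χ s hs h
    by_cases h1 : s = 1
    · exact DirichletCharacter.LFunction_ne_zero_of_one_le_re χ h (by simp [h1])
    · exact Vale.Agent.P026.lfun_ne_zero χ hs h1

end Vale.Agent.Results.P026.QuasiRH
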